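import Mathlib

/-!
# Alperin's weight conjecture (non-blockwise form): the objects

`numSimple k G` : number of isomorphism classes of simple `kG`-modules.
`Weight p G`, `numWeights p G` : `p`-weights of `G` and the number of their `G`-classes.
`SurfaceGroup g` : fundamental group of the closed orientable surface of genus `g`.
-/

namespace P179H524

open Subgroup

/-- Irreducible matrix representations of `G` over `k` (of any degree `n`): pairs of a degree `n`
and an irreducible representation of `G` on `Fin n → k`. -/
def IrrRep (k G : Type*) [Field k] [Group G] : Type _ :=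
  {x : Σ n : ℕ, Representation k G (Fin n → k) // x.2.IsIrreducible}

/-- Isomorphism of irreducible representations. -/
def IrrRep.Iso {k G : Type*} [Field k] [Group G] (a b : IrrRep k G) : Prop :=
  Nonempty (Representation.Equiv a.1.2 b.1.2)

/-- The number of isomorphism classes of irreducible representations of `G` over `k`, that is of
simple `kG`-modules. -/
noncomputable def numSimple (k G : Type*) [Field k] [Group G] : ℕ :=
  Nat.card (Quot (IrrRep.Iso (k := k) (G := G)))

/-- `χ` is an ordinary irreducible character of `K`. -/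
def IsIrrChar {K : Type*} [Group K] (χ : K → ℂ) : Prop :=
  ∃ (n : ℕ) (ρ : Representation ℂ K (Fin n → ℂ)), ρ.IsIrreducible ∧ ρ.character = χ

/-- `χ` is an ordinary irreducible character of the finite group `K` with
`χ(1)_p = |K|_p`, that is, of `p`-defect zero. -/
def IsDefectZeroChar (p : ℕ) {K : Type*} [Group K] (χ : K → ℂ) : Prop :=
  IsIrrChar χ ∧ ∃ d : ℕ, χ 1 = d ∧ d.factorization p = (Nat.card K).factorization p

/-- The quotient `N_G(Q)/Q`. -/
abbrev NQ {G : Type*} [Group G] (Q : Subgroup G) : Type _ :=
  (normalizer (Q : Set G)) ⧸ Q.subgroupOf (normalizer (Q : Set G))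

/-- A `p`-weight of `G`: a pair `(Q, φ)`, `Q` a `p`-subgroup of `G` and `φ` an ordinary irreducible
character of `N_G(Q)/Q` with `φ(1)_p = |N_G(Q)/Q|_p`. -/
structure Weight (p : ℕ) (G : Type*) [Group G] where
  /-- the `p`-subgroup -/
  Q : Subgroup G
  isPGroup : IsPGroup p Q
  /-- the character of `N_G(Q)/Q` -/
  φ : NQ Q → ℂ
  defectZero : IsDefectZeroChar p φ

/-- `G`-conjugacy of weights: `b = g a g⁻¹` for some `g ∈ G`. -/
def Weight.Conj {p : ℕ} {G : Type*} [Group G] (a b : Weight p G) : Prop :=
  ∃ g : G, b.Q = a.Q.map (MulAut.conj g).toMonoidHom ∧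
    ∀ (n : normalizer (a.Q : Set G)) (n' : normalizer (b.Q : Set G)),
      (n' : G) = g * n * g⁻¹ → b.φ (QuotientGroup.mk n') = a.φ (QuotientGroup.mk n)

/-- The number of `G`-classes of `p`-weights of `G`. -/
noncomputable def numWeights (p : ℕ) (G : Type*) [Group G] : ℕ :=
  Nat.card (Quot (Weight.Conj (p := p) (G := G)))

/-- The standard relator `[a_1,b_1] ⋯ [a_g,b_g]`. -/
def surfaceRelator (g : ℕ) : FreeGroup (Fin g × Bool) :=
  (List.ofFn fun i : Fin g =>
    FreeGroup.of (i, false) * FreeGroup.of (i, true) * (FreeGroup.of (i, false))⁻¹ *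
      (FreeGroup.of (i, true))⁻¹).prod

/-- The fundamental group of a closed orientable surface of genus `g`. -/
abbrev SurfaceGroup (g : ℕ) : Type :=
  PresentedGroup ({surfaceRelator g} : Set (FreeGroup (Fin g × Bool)))

/-- The number of surjective homomorphisms from the surface group of genus `g` onto `H`. -/
noncomputable def numEpi (g : ℕ) (H : Type*) [Group H] : ℕ :=
  Nat.card {f : SurfaceGroup g →* H // Function.Surjective f}

/-- The number of normal subgroups of the surface group of genus `g` with quotient isomorphic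
to `H`. -/
noncomputable def numKernels (g : ℕ) (H : Type*) [Group H] : ℕ :=
  Nat.card {M : Subgroup (SurfaceGroup g) // ∃ _ : M.Normal,
    Nonempty ((SurfaceGroup g ⧸ M) ≃* H)}

/-- `O_p(H) = 1`. -/
def OpTrivial (p : ℕ) (H : Type*) [Group H] : Prop :=
  ∀ R : Subgroup H, R.Normal → IsPGroup p R → R = ⊥

/-- `H` is not abelian. -/
def NonAbelian (H : Type*) [Group H] : Prop :=
  ∃ a b : H, a * b ≠ b * a

end P179H524
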